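import Vale.Agent.P281.H22.HK.Fib
import Vale.Agent.P281.H702.HKT.Desc
import Vale.Agent.P281.H399.QT.Quo

/-!
# P281, project T-HKT (helper615): `ℂ^a × H` is the universal covering of the fibre, the sheets
-/

open Set Filter Metric Vale.Agent.P281 Vale.Agent.P272.K
open scoped Topology ContDiff Manifold

set_option linter.unusedSectionVars false

noncomputable section

namespace Vale.Agent.P281.H615.HKT

open Vale.Agent.P281.H64.TK Vale.Agent.P281.H125.Fib Vale.Agent.P281.H969.K.FibN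
open Vale.Agent.P281.H603.TE Vale.Agent.P281.H399.QT

attribute [local instance] ccs'

section chart
variable {a h : ℕ} {H : Type} [TopologicalSpace H] [ChartedSpace (Cm h) H]

/-- the chart of `ℂ^a × H` -/
def jm (e : Chart h H) (r : Cm a × Cm h) : Cm a × H := (r.1, e.symm r.2)

variable [IsManifold 𝓘(ℂ, Cm h) ω H]

theorem jm_contMDiff {e : Chart h H} (he : e ∈ atlas (Cm h) H) {r : Cm a × Cm h}
    (hr : r.2 ∈ e.target) :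
    ContMDiffAt 𝓘(ℂ, Cm a × Cm h) (𝓘(ℂ, Cm a).prod 𝓘(ℂ, Cm h)) ω (jm (a := a) e) r := by
  have h1 : ContMDiffAt 𝓘(ℂ, Cm a × Cm h) 𝓘(ℂ, Cm a) ω (fun r : Cm a × Cm h => r.1) r :=
    contMDiffAt_iff_contDiffAt.2 contDiffAt_fst
  have h2 : ContMDiffAt 𝓘(ℂ, Cm a × Cm h) 𝓘(ℂ, Cm h) ω (fun r : Cm a × Cm h => r.2) r :=
    contMDiffAt_iff_contDiffAt.2 contDiffAt_snd
  have h3 : ContMDiffAt 𝓘(ℂ, Cm h) 𝓘(ℂ, Cm h) ω e.symm r.2 :=
    contMDiffAt_symm_of_mem_maximalAtlas (IsManifold.subset_maximalAtlas he) hr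
  exact h1.prodMk (ContMDiffAt.comp r h3 h2)

theorem jm_inj {e : Chart h H} (he : e ∈ atlas (Cm h) H) {r : Cm a × Cm h}
    (hr : r.2 ∈ e.target) :
    Function.Injective (mfderiv 𝓘(ℂ, Cm a × Cm h) (𝓘(ℂ, Cm a).prod 𝓘(ℂ, Cm h))
      (jm (a := a) e) r) := by
  have hM : IsManifold 𝓘(ℂ, Cm h) 1 H := IsManifold.of_le (n := ω) le_top
  have hs : e.symm r.2 ∈ e.source := e.map_target hr
  have h1 : MDifferentiableAt (𝓘(ℂ, Cm a).prod 𝓘(ℂ, Cm h)) 𝓘(ℂ, Cm a)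
      (fun x : Cm a × H => x.1) (jm e r) := contMDiffAt_fst.mdifferentiableAt (n := 1) (by simp)
  have h2 : MDifferentiableAt (𝓘(ℂ, Cm a).prod 𝓘(ℂ, Cm h)) 𝓘(ℂ, Cm h)
      (fun x : Cm a × H => e x.2) (jm e r) := by
    have h3 : MDifferentiableAt 𝓘(ℂ, Cm h) 𝓘(ℂ, Cm h) e (jm (a := a) e r).2 :=
      mdifferentiableAt_atlas he hs
    have h4 : MDifferentiableAt (𝓘(ℂ, Cm a).prod 𝓘(ℂ, Cm h)) 𝓘(ℂ, Cm h)
      (fun x : Cm a × H => x.2) (jm e r) := contMDiffAt_snd.mdifferentiableAt (n := 1) (by simp)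
    exact MDifferentiableAt.comp _ h3 h4
  have h5 : MDifferentiableAt (𝓘(ℂ, Cm a).prod 𝓘(ℂ, Cm h)) 𝓘(ℂ, Cm a × Cm h)
      (fun x : Cm a × H => (x.1, e x.2)) (jm e r) := h1.prodMk_space h2
  have h6 := HasMFDerivAt.comp r h5.hasMFDerivAt
    ((jm_contMDiff he hr).mdifferentiableAt (by simp)).hasMFDerivAt
  have h7 : HasMFDerivAt 𝓘(ℂ, Cm a × Cm h) 𝓘(ℂ, Cm a × Cm h) (fun r : Cm a × Cm h => r) r
      (ContinuousLinearMap.id ℂ (TangentSpace 𝓘(ℂ, Cm a × Cm h) r)) := hasMFDerivAt_id r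
  have h8 : (fun r : Cm a × Cm h => r) =ᶠ[𝓝 r]
      (fun x : Cm a × H => (x.1, e x.2)) ∘ (jm (a := a) e) := by
    have h9 : ∀ᶠ r' : Cm a × Cm h in 𝓝 r, r'.2 ∈ e.target :=
      (continuous_snd.tendsto r).eventually (e.open_target.mem_nhds hr)
    filter_upwards [h9] with r' hr'
    exact Prod.ext rfl (e.right_inv hr').symm
  have h10 := (h6.congr_of_eventuallyEq h8).mfderiv
  have h11 := h7.mfderiv
  intro ξ ξ' hξ
  have e1 := congrArg (fun L : (Cm a × Cm h) →L[ℂ] (Cm a × Cm h) => L ξ) (h11.symm.trans h10)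
  have e2 := congrArg (fun L : (Cm a × Cm h) →L[ℂ] (Cm a × Cm h) => L ξ') (h11.symm.trans h10)
  have e3 : (ξ : Cm a × Cm h) = mfderiv (𝓘(ℂ, Cm a).prod 𝓘(ℂ, Cm h)) 𝓘(ℂ, Cm a × Cm h)
      (fun x : Cm a × H => (x.1, e x.2)) (jm e r) (mfderiv 𝓘(ℂ, Cm a × Cm h)
        (𝓘(ℂ, Cm a).prod 𝓘(ℂ, Cm h)) (jm (a := a) e) r ξ) := e1
  have e4 : (ξ' : Cm a × Cm h) = mfderiv (𝓘(ℂ, Cm a).prod 𝓘(ℂ, Cm h)) 𝓘(ℂ, Cm a × Cm h)
      (fun x : Cm a × H => (x.1, e x.2)) (jm e r) (mfderiv 𝓘(ℂ, Cm a × Cm h)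
        (𝓘(ℂ, Cm a).prod 𝓘(ℂ, Cm h)) (jm (a := a) e) r ξ') := e2
  rw [e3, e4, hξ]

end chart

section main
variable {n d a h : ℕ} {Z F H E Γ : Type} [TopologicalSpace Z] [ChartedSpace (Cm n) Z]
  [IsManifold 𝓘(ℂ, Cm n) ω Z] [TopologicalSpace F] [ChartedSpace (Cm d) F]
  [IsManifold 𝓘(ℂ, Cm d) ω F] [TopologicalSpace H] [ChartedSpace (Cm h) H]
  [IsManifold 𝓘(ℂ, Cm h) ω H] [TopologicalSpace E] [Group Γ] [MulAction Γ E]
  [ContinuousConstSMul Γ E] {S : Sheets d E Γ} {Q : E → Z} {i : F → Z} {g : Cm a × H → F}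

theorem equiv_of_inj (had : a + h = d) {L : Cm a × Cm h →L[ℂ] Cm d}
    (hL : Function.Injective L) : ∃ L' : (Cm a × Cm h) ≃L[ℂ] Cm d,
      (L' : Cm a × Cm h →L[ℂ] Cm d) = L := by
  have h1 : Module.finrank ℂ (Cm a × Cm h) = Module.finrank ℂ (Cm d) := by
    rw [Module.finrank_prod, Module.finrank_fin_fun, Module.finrank_fin_fun,
      Module.finrank_fin_fun, had]
  refine ⟨(LinearEquiv.ofInjectiveOfFinrankEq (L : Cm a × Cm h →ₗ[ℂ] Cm d) hL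
    h1).toContinuousLinearEquiv, ?_⟩
  ext v
  · rfl
  · rfl

theorem exists_theta (hqd : QD n S Q) (ihol : ContMDiff 𝓘(ℂ, Cm d) 𝓘(ℂ, Cm n) ω i)
    (imm : ∀ x, Function.Injective (mfderiv 𝓘(ℂ, Cm d) 𝓘(ℂ, Cm n) i x)) (had : a + h = d)
    (hg : ∀ x, ContMDiffAt (𝓘(ℂ, Cm a).prod 𝓘(ℂ, Cm h)) 𝓘(ℂ, Cm d) ω g x ∧
      Function.Injective (mfderiv (𝓘(ℂ, Cm a).prod 𝓘(ℂ, Cm h)) 𝓘(ℂ, Cm d) g x))
    (hr : ∀ x, i (g x) ∈ range Q) {j : Fin S.N} {z : Cm d} (hz : z ∈ ball (0 : Cm d) 3)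
    {e : Chart h H} (he : e ∈ atlas (Cm h) H) {r : Cm a × Cm h} (hre : r.2 ∈ e.target)
    (hir : i (g (jm e r)) = Q (S.σ j z)) :
    ∃ (θ : Cm a × Cm h → Cm d) (κ : Cm d → Cm a × Cm h), AnalyticAt ℂ θ r ∧ θ r = z ∧
      AnalyticAt ℂ κ z ∧ κ z = r ∧ (∀ᶠ v in 𝓝 z, θ (κ v) = v) ∧
      ∀ᶠ r' in 𝓝 r, Q (S.σ j (θ r')) = i (g (jm e r')) := by
  have hMZ : IsManifold 𝓘(ℂ, Cm n) 1 Z := IsManifold.of_le (n := ω) le_top
  obtain ⟨ζ, h1, h2, h3⟩ := hqd.coord j z hz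
  set G : Cm a × Cm h → Z := fun r => i (g (jm e r)) with hG
  have hGr : G r = Q (S.σ j z) := hir
  have hgj : ContMDiffAt 𝓘(ℂ, Cm a × Cm h) 𝓘(ℂ, Cm d) ω (fun r => g (jm (a := a) e r)) r :=
    ContMDiffAt.comp r (hg (jm e r)).1 (jm_contMDiff he hre)
  have hGc : ContMDiffAt 𝓘(ℂ, Cm a × Cm h) 𝓘(ℂ, Cm n) ω G r :=
    ContMDiffAt.comp r (ihol _) hgj
  have h1' : ContMDiffAt 𝓘(ℂ, Cm n) 𝓘(ℂ, Cm d) ω ζ (G r) := by rw [hGr]; exact h1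
  have hθ : ContMDiffAt 𝓘(ℂ, Cm a × Cm h) 𝓘(ℂ, Cm d) ω (fun r => ζ (G r)) r :=
    ContMDiffAt.comp r h1' hGc
  have hθd : ContDiffAt ℂ ω (fun r => ζ (G r)) r := contMDiffAt_iff_contDiffAt.1 hθ
  have hθr : ζ (G r) = z := by rw [hGr, h2]
  have hloc : ∀ᶠ r' in 𝓝 r, Q (S.σ j (ζ (G r'))) = G r' := by
    have h4 : ∀ᶠ x in 𝓝 (G r), x ∈ range Q → Q (S.σ j (ζ x)) = x := by
      rw [hGr]; exact h3
    filter_upwards [hGc.continuousAt.eventually h4] with r' hr'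
    exact hr' (hr _)
  -- the derivative of `G` is injective
  have m1 := (hg (jm e r)).1.mdifferentiableAt (by simp)
  have m2 := (ihol (g (jm e r))).mdifferentiableAt (by simp)
  have m3 := (jm_contMDiff (a := a) he hre).mdifferentiableAt (by simp)
  have m4 := (HasMFDerivAt.comp r (HasMFDerivAt.comp (jm e r) m2.hasMFDerivAt m1.hasMFDerivAt)
    m3.hasMFDerivAt).mfderiv
  have hQ : MDifferentiableAt 𝓘(ℂ, Cm d) 𝓘(ℂ, Cm n) (fun y => Q (S.σ j y)) (ζ (G r)) := by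
    rw [hθr]; exact (hqd.hol j z hz).mdifferentiableAt (by simp)
  have hloc' : G =ᶠ[𝓝 r] (fun y => Q (S.σ j y)) ∘ fun r => ζ (G r) := by
    filter_upwards [hloc] with r' hr'
    exact hr'.symm
  have m5 := ((hQ.hasMFDerivAt.comp r
      (hθ.mdifferentiableAt (by simp)).hasMFDerivAt).congr_of_eventuallyEq hloc').mfderiv
  have hinj : Function.Injective (mfderiv 𝓘(ℂ, Cm a × Cm h) 𝓘(ℂ, Cm d)
      (fun r => ζ (G r)) r) := by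
    intro ξ ξ' hξ
    have e1 : ∀ ξ : Cm a × Cm h, (mfderiv 𝓘(ℂ, Cm a × Cm h) 𝓘(ℂ, Cm n) G r ξ : Cm n) =
        mfderiv 𝓘(ℂ, Cm d) 𝓘(ℂ, Cm n) (fun y => Q (S.σ j y)) (ζ (G r))
          (mfderiv 𝓘(ℂ, Cm a × Cm h) 𝓘(ℂ, Cm d) (fun r => ζ (G r)) r ξ) := fun ξ =>
      congrArg (fun L : Cm a × Cm h →L[ℂ] Cm n => L ξ) m5
    have e2 : ∀ ξ : Cm a × Cm h, (mfderiv 𝓘(ℂ, Cm a × Cm h) 𝓘(ℂ, Cm n) G r ξ : Cm n) =
        mfderiv 𝓘(ℂ, Cm d) 𝓘(ℂ, Cm n) i (g (jm e r)) (mfderiv (𝓘(ℂ, Cm a).prod 𝓘(ℂ, Cm h))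
          𝓘(ℂ, Cm d) g (jm e r) (mfderiv 𝓘(ℂ, Cm a × Cm h) (𝓘(ℂ, Cm a).prod 𝓘(ℂ, Cm h))
            (jm (a := a) e) r ξ)) := fun ξ =>
      congrArg (fun L : Cm a × Cm h →L[ℂ] Cm n => L ξ) m4
    have e3 := e1 ξ
    rw [hξ, ← e1 ξ'] at e3
    have e4 := (e2 ξ).symm.trans (e3.trans (e2 ξ'))
    exact jm_inj he hre ((hg _).2 (imm _ e4))
  have hfd : mfderiv 𝓘(ℂ, Cm a × Cm h) 𝓘(ℂ, Cm d) (fun r => ζ (G r)) r =
      fderiv ℂ (fun r => ζ (G r)) r := mfderiv_eq_fderiv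
  rw [hfd] at hinj
  obtain ⟨L, hL⟩ := equiv_of_inj had hinj
  have hd : HasFDerivAt (fun r => ζ (G r)) (L : Cm a × Cm h →L[ℂ] Cm d) r := by
    rw [hL]
    exact (hθd.differentiableAt (by simp)).hasFDerivAt
  have hsd : HasStrictFDerivAt (fun r => ζ (G r)) (L : Cm a × Cm h →L[ℂ] Cm d) r := by
    rw [hL]
    exact hθd.hasStrictFDerivAt (by simp)
  refine ⟨fun r => ζ (G r), hsd.localInverse _ _ _, hθd.analyticAt, hθr, ?_, ?_, ?_, hloc⟩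
  · have := hθd.to_localInverse hd (by simp)
    rw [hθr] at this
    exact this.analyticAt
  · have := hsd.localInverse_apply_image
    rw [hθr] at this
    exact this
  · have := hsd.eventually_right_inverse
    rw [hθr] at this
    exact this

theorem symm_smul {τ : E ≃ₜ Cm a × H} {K : Subgroup Γ} {l : K → Cm a}
    (hl : ∀ (k : K) e, τ ((k : Γ) • e) = ((τ e).1 + l k, (τ e).2)) (k : K) (r : Cm a × H) :
    τ.symm (r.1 + l k, r.2) = (k : Γ) • τ.symm r := by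
  rw [Homeomorph.symm_apply_eq, hl, τ.apply_symm_apply]

/-- the sheets, in the charts of `ℂ^a × H` -/
theorem loc_aux (hqd : QD n S Q) (ihol : ContMDiff 𝓘(ℂ, Cm d) 𝓘(ℂ, Cm n) ω i)
    (imm : ∀ x, Function.Injective (mfderiv 𝓘(ℂ, Cm d) 𝓘(ℂ, Cm n) i x)) (had : a + h = d)
    (hg : ∀ x, ContMDiffAt (𝓘(ℂ, Cm a).prod 𝓘(ℂ, Cm h)) 𝓘(ℂ, Cm d) ω g x ∧
      Function.Injective (mfderiv (𝓘(ℂ, Cm a).prod 𝓘(ℂ, Cm h)) 𝓘(ℂ, Cm d) g x))
    (τ : E ≃ₜ Cm a × H) (hτ : ∀ e, i (g (τ e)) = Q e) (K : Subgroup Γ) [K.FiniteIndex]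
    {j : Fin (sub S K).N} {z : Cm d} (hz : z ∈ ball (0 : Cm d) 3) {q : Cm a × H} {k : K}
    (hk' : (k : Γ) • (sub S K).σ j z = τ.symm q) {e : Chart h H} (he : e ∈ atlas (Cm h) H)
    (hqe : q.2 ∈ e.source) :
    ∃ (θ : Cm a × Cm h → Cm d) (κ : Cm d → Cm a × Cm h), AnalyticAt ℂ θ (q.1, e q.2) ∧
      θ (q.1, e q.2) = z ∧ AnalyticAt ℂ κ z ∧ κ z = (q.1, e q.2) ∧ (∀ᶠ v in 𝓝 z, θ (κ v) = v) ∧
      ∀ᶠ r in 𝓝 (q.1, e q.2), (k : Γ)⁻¹ • τ.symm (jm e r) = (sub S K).σ j (θ r) := by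
  have hQσ : ∀ y, Q ((sub S K).σ j y) = Q (S.σ (idx K S.N j).1 y) := fun y =>
    ((hqd.Qeq _ _).2 ⟨rep K (idx K S.N j).2, rfl⟩).symm
  have hQτ : ∀ v, i (g v) = Q (τ.symm v) := fun v => by
    rw [← hτ, τ.apply_symm_apply]
  have hre : e q.2 ∈ e.target := e.map_source hqe
  have hj0 : jm e (q.1, e q.2) = q := Prod.ext rfl (e.left_inv hqe)
  have hir : i (g (jm e (q.1, e q.2))) = Q (S.σ (idx K S.N j).1 z) := by
    rw [hj0, hQτ, ← hk', ← hQσ]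
    exact ((hqd.Qeq _ _).2 ⟨(k : Γ), rfl⟩).symm
  obtain ⟨θ, κ, h1, h2, h3, h4, h5, h6⟩ := exists_theta hqd ihol imm had hg
    (fun x => ⟨τ.symm x, (hQτ x).symm⟩) hz he (r := (q.1, e q.2)) hre hir
  have hjc : ContinuousAt (fun r => τ.symm (jm (a := a) e r)) (q.1, e q.2) :=
    τ.symm.continuous.continuousAt.comp (jm_contMDiff he hre).continuousAt
  have hkc : ContinuousAt (fun r => (k : Γ)⁻¹ • τ.symm (jm (a := a) e r)) (q.1, e q.2) :=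
    hjc.const_smul _
  have hk0 : (k : Γ)⁻¹ • τ.symm (jm (a := a) e (q.1, e q.2)) = (sub S K).σ j z := by
    rw [hj0, ← hk', inv_smul_smul]
  have a1 : ∀ᶠ r in 𝓝 (q.1, e q.2), ∃ u ∈ ball (0 : Cm d) 3,
      (sub S K).σ j u = (k : Γ)⁻¹ • τ.symm (jm (a := a) e r) := by
    have b1 : ∀ᶠ ε in 𝓝 ((k : Γ)⁻¹ • τ.symm (jm (a := a) e (q.1, e q.2))),
        ∃ u ∈ ball (0 : Cm d) 3, (sub S K).σ j u = ε := by
      rw [hk0, ← (sub S K).map_nhds j z hz, eventually_map]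
      filter_upwards [isOpen_ball.mem_nhds hz] with u hu
      exact ⟨u, hu, rfl⟩
    exact hkc.eventually b1
  have a2 : ∀ᶠ r in 𝓝 (q.1, e q.2), θ r ∈ ball (0 : Cm d) 3 := by
    refine h1.continuousAt.eventually (p := fun u => u ∈ ball (0 : Cm d) 3) ?_
    show ∀ᶠ u in 𝓝 (θ (q.1, e q.2)), u ∈ ball (0 : Cm d) 3
    rw [h2]
    exact isOpen_ball.mem_nhds hz
  refine ⟨θ, κ, h1, h2, h3, h4, h5, ?_⟩
  filter_upwards [a1, a2, h6] with r c1 c2 c3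
  obtain ⟨u, hu, hue⟩ := c1
  have d1 : Q ((sub S K).σ j u) = i (g (jm e r)) := by
    rw [hue, hQτ]
    exact ((hqd.Qeq _ _).2 ⟨(k : Γ)⁻¹, rfl⟩).symm
  rw [hQσ] at d1
  obtain ⟨γ, hγ⟩ := (hqd.Qeq _ _).1 (c3.trans d1.symm)
  have d3 : θ r = u := (S.inj _ _ c2 u hu γ hγ).2
  rw [d3, hue]

/-- **(A3)** -/
theorem cvr_of (hqd : QD n S Q) (ihol : ContMDiff 𝓘(ℂ, Cm d) 𝓘(ℂ, Cm n) ω i)
    (imm : ∀ x, Function.Injective (mfderiv 𝓘(ℂ, Cm d) 𝓘(ℂ, Cm n) i x)) (had : a + h = d)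
    (hg : ∀ x, ContMDiffAt (𝓘(ℂ, Cm a).prod 𝓘(ℂ, Cm h)) 𝓘(ℂ, Cm d) ω g x ∧
      Function.Injective (mfderiv (𝓘(ℂ, Cm a).prod 𝓘(ℂ, Cm h)) 𝓘(ℂ, Cm d) g x))
    (τ : E ≃ₜ Cm a × H) (hτ : ∀ e, i (g (τ e)) = Q e) (K : Subgroup Γ) [K.FiniteIndex]
    (l : K → Cm a) (hl : ∀ (k : K) e, τ ((k : Γ) • e) = ((τ e).1 + l k, (τ e).2))
    (hC : ∃ C : Set (Cm a), IsCompact C ∧ ∀ z, ∃ k : K, z + l k ∈ C) :
    H702.HKT.Cvr h (quo (sub S K)) (fun v => pj K (τ.symm v)) where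
  surj m := by
    obtain ⟨e, rfl⟩ := pj_surj m
    exact ⟨τ e, congrArg (pj K) (τ.symm_apply_apply e)⟩
  eqv q q' hq := by
    obtain ⟨k, hk⟩ := pj_eq.1 hq.symm
    have h1 : (k : Γ) • τ.symm q = τ.symm q' := hk
    rw [← symm_smul hl] at h1
    have h2 : (q.1 + l k, q.2) = q' := τ.symm.injective h1
    refine ⟨(congrArg Prod.snd h2).symm, fun r => ?_⟩
    have h3 : q'.1 - q.1 = l k := by
      rw [← h2]
      show q.1 + l k - q.1 = l k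
      abel
    show pj K (τ.symm (r.1 + (q'.1 - q.1), r.2)) = pj K (τ.symm r)
    rw [h3, symm_smul hl]
    exact pj_smul k (τ.symm r)
  cpt := by
    obtain ⟨C, hC1, hC2⟩ := hC
    refine ⟨C, hC1, fun z => ?_⟩
    obtain ⟨k, hk⟩ := hC2 z
    refine ⟨l k, fun r => ?_, hk⟩
    show pj K (τ.symm (r.1 + l k, r.2)) = pj K (τ.symm r)
    rw [symm_smul hl]
    exact pj_smul k (τ.symm r)
  loc j z hz q hq e he hqe := by
    have hq1 : pj K (τ.symm q) = pj K ((sub S K).σ j z) := hq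
    obtain ⟨k, hk⟩ := pj_eq.1 hq1
    obtain ⟨θ, κ, h1, h2, h3, h4, h5, h6⟩ := loc_aux hqd ihol imm had hg τ hτ K hz
      (k := k) hk he hqe
    have key : ∀ᶠ r : Cm a × Cm h in 𝓝 (q.1, e q.2),
        pj K (τ.symm (r.1, e.symm r.2)) = pj K ((sub S K).σ j (θ r)) := by
      filter_upwards [h6] with r c1
      rw [← c1]
      exact (pj_smul (k⁻¹ : K) (τ.symm (jm e r))).symm
    refine ⟨κ, θ, h3, h4, h1, h2, ?_, key⟩
    have hκt : Tendsto κ (𝓝 z) (𝓝 (q.1, e q.2)) := by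
      have := h3.continuousAt.tendsto
      rwa [h4] at this
    filter_upwards [hκt.eventually key, h5] with v e1 e2
    show pj K (τ.symm ((κ v).1, e.symm (κ v).2)) = pj K ((sub S K).σ j v)
    rw [e1, e2]

/-- the first component is additive -/
theorem add_fst (hqd : QD n S Q) (ihol : ContMDiff 𝓘(ℂ, Cm d) 𝓘(ℂ, Cm n) ω i)
    (imm : ∀ x, Function.Injective (mfderiv 𝓘(ℂ, Cm d) 𝓘(ℂ, Cm n) i x)) (had : a + h = d)
    (hg : ∀ x, ContMDiffAt (𝓘(ℂ, Cm a).prod 𝓘(ℂ, Cm h)) 𝓘(ℂ, Cm d) ω g x ∧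
      Function.Injective (mfderiv (𝓘(ℂ, Cm a).prod 𝓘(ℂ, Cm h)) 𝓘(ℂ, Cm d) g x))
    (τ : E ≃ₜ Cm a × H) (hτ : ∀ e, i (g (τ e)) = Q e) (K : Subgroup Γ) [K.FiniteIndex]
    (l : K → Cm a) (hl : ∀ (k : K) e, τ ((k : Γ) • e) = ((τ e).1 + l k, (τ e).2))
    (m : Fin a) : Add (sub S K) (fun e => (τ e).1 m) (fun k => l k m) where
  hol j z hz := by
    refine DifferentiableAt.differentiableWithinAt ?_
    set q := τ ((sub S K).σ j z) with hq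
    have hk : ((1 : K) : Γ) • (sub S K).σ j z = τ.symm q := by
      rw [hq, τ.symm_apply_apply]
      exact one_smul _ _
    obtain ⟨θ, κ, h1, h2, h3, h4, h5, h6⟩ := loc_aux hqd ihol imm had hg τ hτ K hz hk
      (chart_mem_atlas (Cm h) q.2) (mem_chart_source (Cm h) q.2)
    have hκt : Tendsto κ (𝓝 z) (𝓝 (q.1, chartAt (Cm h) q.2 q.2)) := by
      have := h3.continuousAt.tendsto
      rwa [h4] at this
    have h7 : (fun v => (τ ((sub S K).σ j v)).1 m) =ᶠ[𝓝 z] fun v => (κ v).1 m := by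
      filter_upwards [hκt.eventually h6, h5] with v e1 e2
      rw [e2] at e1
      have e3 : ((1 : K) : Γ)⁻¹ • τ.symm (jm (chartAt (Cm h) q.2) (κ v)) =
          τ.symm (jm (chartAt (Cm h) q.2) (κ v)) := by simp
      rw [← e1, e3, τ.apply_symm_apply]
      rfl
    rw [h7.differentiableAt_iff]
    have h8 : DifferentiableAt ℂ (fun v => (κ v).1) z :=
      (ContinuousLinearMap.fst ℂ (Cm a) (Cm h)).differentiableAt.comp z h3.differentiableAt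
    exact (differentiableAt_pi.1 h8) m
  add k e := by
    show (τ ((k : Γ) • e)).1 m = (τ e).1 m + l k m
    rw [hl]
    rfl

end main

end Vale.Agent.P281.H615.HKT
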