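import Vale.Agent.P281.H615.HKT.FibTC
import Vale.Agent.P281.H751.HKT.BasT

/-!
# P281, project T-HKT, class C (helper615): the additive functions, from the closed 1-forms
-/

open Set Filter Metric MeasureTheory Vale.Agent.P281 Vale.Agent.P281.H713 Vale.Agent.P272.K
open Vale.Agent.P281.H399.QT (Qs One1 pj quo)
open scoped Topology ContDiff Manifold ComplexConjugate ComplexOrder

noncomputable section

namespace Vale.Agent.P281.H615.HKT

open Vale.Agent.P281.H64.TK Vale.Agent.P281.H64.TK.TS Vale.Agent.P281.H83.HK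
open Vale.Agent.P281.H83.HKT (NDegT GenU RatRad dF IsTH Hol1)
open Vale.Agent.P281.H191.RC (PsiT)

/-- a linear form which vanishes on a cocompact set of translations is zero -/
theorem indep_of_cpt {a : ℕ} {K : Type} {l : K → Cm a}
    (hC : ∃ C : Set (Cm a), IsCompact C ∧ ∀ z, ∃ k : K, z + l k ∈ C) (s : Fin a → ℂ)
    (hs : ∀ γ, ∑ j, s j * l γ j = 0) : s = 0 := by
  classical
  obtain ⟨C, hC, hz⟩ := hC
  set L : Cm a → ℂ := fun z => ∑ j, s j * z j with hL
  have hLc : Continuous L := by fun_prop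
  obtain ⟨M, hM⟩ := (hC.image hLc).isBounded.exists_norm_le
  have hb : ∀ z, ‖L z‖ ≤ M := fun z => by
    obtain ⟨k, hk⟩ := hz z
    have h1 : L (z + l k) = L z := by
      simp only [hL, Pi.add_apply, mul_add, Finset.sum_add_distrib]
      rw [hs k, add_zero]
    rw [← h1]
    exact hM _ ⟨_, hk, rfl⟩
  funext j
  by_contra hne
  have hne' : s j ≠ 0 := hne
  have h2 : L (Pi.single j (((M + 1 : ℝ) : ℂ) / s j)) = ((M + 1 : ℝ) : ℂ) := by
    simp only [hL]
    rw [Finset.sum_eq_single j]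
    · rw [Pi.single_eq_same]
      field_simp
    · intro b _ hb
      rw [Pi.single_eq_of_ne hb, mul_zero]
    · intro h
      exact absurd (Finset.mem_univ _) h
  have h3 := hb (Pi.single j (((M + 1 : ℝ) : ℂ) / s j))
  rw [h2, Complex.norm_real, Real.norm_eq_abs] at h3
  have := le_abs_self (M + 1)
  linarith

/-- additive functions with vanishing differential are constant (`H511.HKT.const_of_dF`) -/
theorem const_dF {d : ℕ} {E Γ : Type} [TopologicalSpace E] [Group Γ] [MulAction Γ E]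
    {S : Sheets d E Γ} [PreconnectedSpace E] [ContinuousConstSMul Γ E] {h : E → ℂ} {b : Γ → ℂ}
    (hh : Add S h b) (h0 : ∀ i, ∀ z ∈ ball (0 : Cm d) 3, ∀ k, dd k (fun z => h (S.σ i z)) z = 0)
    (e e' : E) : h e = h e' := by
  have hcon : ∀ i, ∀ z ∈ ball (0 : Cm d) 3, ∀ z' ∈ ball (0 : Cm d) 3,
      h (S.σ i z) = h (S.σ i z') := by
    intro i z hz z' hz'
    refine (convex_ball (0 : Cm d) 3).is_const_of_fderivWithin_eq_zero (𝕜 := ℂ) (hh.hol i) ?_ hz hz'
    intro w hw
    rw [fderivWithin_of_isOpen isOpen_ball hw]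
    refine ContinuousLinearMap.ext fun x => ?_
    rw [H751.HKT.clm_sum (fderiv ℂ (fun z => h (S.σ i z)) w) x]
    refine (Finset.sum_eq_zero fun k _ => ?_).trans (zero_apply _).symm
    have h2 : fderiv ℂ (fun z => h (S.σ i z)) w (Pi.single k 1) = 0 := h0 i w hw k
    rw [h2, smul_zero]
  have hloc : IsLocallyConstant h := by
    rw [IsLocallyConstant.iff_eventually_eq]
    intro e
    obtain ⟨γ, i, z, hz, rfl⟩ := S.cover e
    have hz3 := H603.K.Sh.mem3 hz
    rw [← H603.K.Sh.map_nhds_smul S γ i hz3, eventually_map]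
    filter_upwards [isOpen_ball.mem_nhds hz3] with u hu
    have h1 := hh.add γ (S.σ i u)
    have h2 := hh.add γ (S.σ i z)
    rw [h1, h2, hcon i u hu z hz3]
  exact hloc.apply_eq_of_preconnectedSpace e e'

/-- **`BasPsi`, from `GenPsi`.** -/
theorem basPsi_of (hG : GenPsi) : BasPsi := by
  intro a h d E K H _ _ _ _ _ _ _ _ _ _ _ _ S ψ l A had hh hH hT zero fin cpt
  obtain ⟨s, hs⟩ := hG a h d E K H S ψ l A had hh hH hT zero fin cpt
  subst had
  refine ⟨fun j => H125.RC.add_psi hT j, fun s hs => indep_of_cpt cpt s hs, fun f b hf => ?_⟩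
  have h1 : Hol1 (quo S) (dF S (fun e (_ : Fin 1) => f e)) :=
    H751.HKT.hol1_dF (F := fun e (_ : Fin 1) => f e) (c := fun γ _ => b γ) (fun _ => hf)
  obtain ⟨C, hC⟩ := hs.span1 _ h1
  have hA : Add S (fun e => f e - ∑ j, C 0 j * (ψ e).1 j) (fun γ => b γ - ∑ j, C 0 j * l γ j) := by
    refine ⟨fun i => (hf.hol i).sub (DifferentiableOn.fun_sum fun j _ =>
      ((H125.RC.add_psi hT j).hol i).const_mul (C 0 j)), fun γ e => ?_⟩
    have e1 := hf.add γ e
    have e2 : ∑ j, C 0 j * (ψ (γ • e)).1 j = ∑ j, C 0 j * (ψ e).1 j + ∑ j, C 0 j * l γ j := by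
      rw [← Finset.sum_add_distrib]
      refine Finset.sum_congr rfl fun j _ => ?_
      have e3 : (ψ (γ • e)).1 j = (ψ e).1 j + l γ j := (H125.RC.add_psi hT j).add γ e
      rw [e3, mul_add]
    show f (γ • e) - ∑ j, C 0 j * (ψ (γ • e)).1 j = _
    rw [e1, e2]
    ring
  have hcon := const_dF hA fun i z hz k => by
    have hd1 : DifferentiableAt ℂ (fun z => f (S.σ i z)) z :=
      (hf.hol i).differentiableAt (isOpen_ball.mem_nhds hz)
    have hd2 : ∀ j, HasFDerivAt (fun z => (ψ (S.σ i z)).1 j)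
        (fderiv ℂ (fun z => (ψ (S.σ i z)).1 j) z) z := fun j =>
      (((H125.RC.add_psi hT j).hol i).differentiableAt (isOpen_ball.mem_nhds hz)).hasFDerivAt
    have h2 : HasFDerivAt (fun z => f (S.σ i z) - ∑ j, C 0 j * (ψ (S.σ i z)).1 j)
        (fderiv ℂ (fun z => f (S.σ i z)) z -
          ∑ j, C 0 j • fderiv ℂ (fun z => (ψ (S.σ i z)).1 j) z) z :=
      hd1.hasFDerivAt.sub (HasFDerivAt.fun_sum fun j _ => (hd2 j).const_mul _)
    have h3 := congrFun (congrFun (hC i z hz) 0) k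
    rw [Matrix.mul_apply] at h3
    have h4 : fderiv ℂ (fun z => f (S.σ i z)) z (Pi.single k 1) =
        ∑ j, C 0 j * fderiv ℂ (fun z => (ψ (S.σ i z)).1 j) z (Pi.single k 1) := h3
    show fderiv ℂ (fun z => f (S.σ i z) - ∑ j, C 0 j * (ψ (S.σ i z)).1 j) z (Pi.single k 1) = 0
    rw [h2.fderiv]
    simp only [sub_apply, sum_apply, smul_apply, smul_eq_mul]
    rw [h4, sub_self]
  refine ⟨fun j => C 0 j, fun γ => ?_⟩
  obtain ⟨e⟩ : Nonempty E := inferInstance
  have h5 := hA.add γ e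
  rw [hcon (γ • e) e] at h5
  have h6 : b γ - ∑ j, C 0 j * l γ j = 0 := by
    have h7 : f e - ∑ j, C 0 j * (ψ e).1 j = f e - ∑ j, C 0 j * (ψ e).1 j +
      (b γ - ∑ j, C 0 j * l γ j) := h5
    linear_combination -h7
  exact sub_eq_zero.1 h6

end Vale.Agent.P281.H615.HKT
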