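import Vale.Agent.P281.H615.HKT.FibTC
import Vale.Agent.P281.H225.HKT.CoreC

/-!
# P281, project T-HKT, class C (helper615): the statement of helper225
-/

noncomputable section

namespace Vale.Agent.P281.H615.HKT

open Vale.Agent.P281.H64.TK Vale.Agent.P281.H713

/-- **FIB, class C** -/
theorem fibTC_stmt (hAB : ABStmt) (hRC : H152.RC.RadCStmt) (hG : GenPsi) (hB : BasPsi) :
    H225.HKT.FibTCStmt := by
  intro p d X Y X₁ _ _ _ _ _ _ _ _ _ _ _ _ _ f u S y w _ _ F _ _ _ i hsq hF
  exact fibTC_of hAB hRC hG hB hsq hF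

end Vale.Agent.P281.H615.HKT
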