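import Vale.Agent.P281.H64.Gen.SpecN
import Vale.Agent.P281.H842.HKT.Prod
import Vale.Agent.P281.H615.HKT.Cvr

/-!
# P281, project T-HKT, class C (helper615): `ℂ^a × H` as a manifold of dimension `a + h`
-/

open Set Filter Metric Vale.Agent.P281 Vale.Agent.P272.K
open scoped Topology ContDiff Manifold

set_option linter.unusedSectionVars false

noncomputable section

namespace Vale.Agent.P281.H615.HKT

open Vale.Agent.P281.H64.TK Vale.Agent.P281.H842.HKT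
open Vale.Agent.P281.H64.Gen (IsSmall2)

section small
variable {d : ℕ} {V F : Type} [TopologicalSpace V] [ChartedSpace (Cm d) V] [TopologicalSpace F]
  [ChartedSpace (Cm d) F]

/-- small sets of codimension two, and local biholomorphisms -/
theorem small2_pull {g : V → F} (hg : ContMDiff 𝓘(ℂ, Cm d) 𝓘(ℂ, Cm d) ω g)
    (hi : ∀ x, Function.Injective (mfderiv 𝓘(ℂ, Cm d) 𝓘(ℂ, Cm d) g x)) {A : Set F}
    (hA : IsSmall2 (Cm d) A) : IsSmall2 (Cm d) (g ⁻¹' A) := by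
  obtain ⟨hc, H, hH, hAH⟩ := hA
  refine ⟨hc.preimage hg.continuous, fun k => g ⁻¹' (H k), fun k => ⟨(hH k).1.preimage
    hg.continuous, fun x hx => ?_⟩, fun x hx => ?_⟩
  · obtain ⟨G, h1, h2, h3⟩ := (hH k).2 (g x) hx
    refine ⟨fun b z => G b (g z), fun b => ?_, ?_, ?_⟩
    · exact ContMDiffAt.comp x (h1 b) (hg x)
    · intro t
      obtain ⟨ξ, hξ⟩ := h2 t
      have key : ∀ L : Cm d →L[ℂ] Cm d, Function.Injective L → Function.Surjective L :=
        fun L hL => (LinearMap.injective_iff_surjective (f := (L : Cm d →ₗ[ℂ] Cm d))).1 hL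
      have h4 : Function.Surjective (mfderiv 𝓘(ℂ, Cm d) 𝓘(ℂ, Cm d) g x) := key _ (hi x)
      obtain ⟨η, hη⟩ := h4 ξ
      refine ⟨η, ?_⟩
      rw [← hξ]
      funext b
      have h6 := (HasMFDerivAt.comp x ((h1 b).mdifferentiableAt (by simp)).hasMFDerivAt
        ((hg x).mdifferentiableAt (by simp)).hasMFDerivAt).mfderiv
      have h7 : J.dif (Cm d) (fun z => G b (g z)) x η =
          J.dif (Cm d) (G b) (g x) (mfderiv 𝓘(ℂ, Cm d) 𝓘(ℂ, Cm d) g x η) :=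
        congrArg (fun L : Cm d →L[ℂ] ℂ => L η) h6
      show J.dif (Cm d) (fun z => G b (g z)) x η = _
      rw [h7, hη]
    · exact (hg x).continuousAt.eventually h3
  · obtain ⟨k, hk⟩ := mem_iUnion.1 (hAH hx)
    exact mem_iUnion.2 ⟨k, hk⟩

end small

section csV
variable {a h : ℕ} {H : Type} [TopologicalSpace H] [ChartedSpace (Cm h) H]

/-- the chart of `ℂ^a × H` given by a chart of `H` -/
def chV (a : ℕ) (c : OpenPartialHomeomorph H (Cm h)) :
    OpenPartialHomeomorph (Cm a × H) (Cm (a + h)) :=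
  ((OpenPartialHomeomorph.refl (Cm a)).prod c).trans
    (pe a h).symm.toHomeomorph.toOpenPartialHomeomorph

theorem chV_source (c : OpenPartialHomeomorph H (Cm h)) (v : Cm a × H) :
    v ∈ (chV a c).source ↔ v.2 ∈ c.source := by
  unfold chV
  rw [OpenPartialHomeomorph.trans_source]
  constructor
  · rintro ⟨⟨-, h2⟩, -⟩
    exact h2
  · intro h2
    exact ⟨⟨mem_univ _, h2⟩, mem_univ _⟩

theorem chV_apply (c : OpenPartialHomeomorph H (Cm h)) (v : Cm a × H) :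
    chV a c v = (pe a h).symm (v.1, c v.2) := rfl

theorem chV_symm (c : OpenPartialHomeomorph H (Cm h)) (w : Cm (a + h)) :
    (chV a c).symm w = ((pe a h w).1, c.symm (pe a h w).2) := rfl

theorem chV_target (c : OpenPartialHomeomorph H (Cm h)) (w : Cm (a + h)) :
    w ∈ (chV a c).target ↔ (pe a h w).2 ∈ c.target := by
  constructor
  · rintro ⟨-, ⟨-, h2⟩⟩
    exact h2
  · intro h2
    exact ⟨mem_univ _, ⟨mem_univ _, h2⟩⟩

variable (a h H) in
/-- `ℂ^a × H` -/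
@[implicit_reducible] def csV : ChartedSpace (Cm (a + h)) (Cm a × H) where
  atlas := {E | ∃ c ∈ atlas (Cm h) H, chV a c = E}
  chartAt v := chV a (chartAt (Cm h) v.2)
  mem_chart_source v := (chV_source _ v).2 (mem_chart_source _ _)
  chart_mem_atlas _ := ⟨_, chart_mem_atlas _ _, rfl⟩

attribute [local instance] csV

theorem chV_mem {c : OpenPartialHomeomorph H (Cm h)} (hc : c ∈ atlas (Cm h) H) :
    chV a c ∈ atlas (Cm (a + h)) (Cm a × H) := ⟨c, hc, rfl⟩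

variable [IsManifold 𝓘(ℂ, Cm h) ω H]

theorem mfV : IsManifold 𝓘(ℂ, Cm (a + h)) ω (Cm a × H) := by
  refine isManifold_of_contDiffOn 𝓘(ℂ, Cm (a + h)) ω (Cm a × H) ?_
  rintro _ _ ⟨c, hc, rfl⟩ ⟨c', hc', rfl⟩
  simp only [modelWithCornersSelf_coe, modelWithCornersSelf_coe_symm, Function.id_comp,
    Function.comp_id, preimage_id, range_id, inter_univ]
  intro w hw
  refine ContDiffAt.contDiffWithinAt ?_
  have hw1 : w ∈ (chV a c).target := hw.1
  have hw2 : (chV a c).symm w ∈ (chV a c').source := hw.2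
  have h1 : (pe a h w).2 ∈ c.target := (chV_target c w).1 hw1
  have h2 : c.symm (pe a h w).2 ∈ c'.source := (chV_source c' _).1 hw2
  have h3 : ContMDiffAt 𝓘(ℂ, Cm h) 𝓘(ℂ, Cm h) ω c.symm (pe a h w).2 :=
    contMDiffAt_symm_of_mem_maximalAtlas (IsManifold.subset_maximalAtlas hc) h1
  have h4 : ContMDiffAt 𝓘(ℂ, Cm h) 𝓘(ℂ, Cm h) ω c' (c.symm (pe a h w).2) :=
    contMDiffAt_of_mem_maximalAtlas (IsManifold.subset_maximalAtlas hc') h2
  have h5 : ContDiffAt ℂ ω (fun r => c' (c.symm r)) (pe a h w).2 :=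
    contMDiffAt_iff_contDiffAt.1 (ContMDiffAt.comp _ h4 h3)
  have h6 : ContDiffAt ℂ ω (fun w : Cm (a + h) => (pe a h w).2) w :=
    contDiffAt_snd.comp w (pe a h).contDiff.contDiffAt
  have h7 : ContDiffAt ℂ ω (fun w : Cm (a + h) => (pe a h w).1) w :=
    contDiffAt_fst.comp w (pe a h).contDiff.contDiffAt
  have h8 : ContDiffAt ℂ ω (fun w : Cm (a + h) => c' (c.symm (pe a h w).2)) w :=
    ContDiffAt.comp w (g := fun r => c' (c.symm r)) h5 h6
  exact (pe a h).symm.contDiff.contDiffAt.comp w (h7.prodMk h8)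

/-- the identity, from the charts `chV` to the product -/
theorem id_md (v : Cm a × H) : ContMDiffAt 𝓘(ℂ, Cm (a + h)) (𝓘(ℂ, Cm a).prod 𝓘(ℂ, Cm h)) ω
    (fun v : Cm a × H => v) v := by
  have hM := mfV (a := a) (h := h) (H := H)
  set c := chartAt (Cm h) v.2 with hc
  have hcm : c ∈ atlas (Cm h) H := chart_mem_atlas _ _
  have hv : v ∈ (chV a c).source := (chV_source _ _).2 (mem_chart_source _ _)
  have h0 : ContMDiffAt 𝓘(ℂ, Cm (a + h)) 𝓘(ℂ, Cm (a + h)) ω (chV a c) v :=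
    contMDiffAt_of_mem_maximalAtlas (IsManifold.subset_maximalAtlas (chV_mem hcm)) hv
  have h1 : (pe a h (chV a c v)).2 ∈ c.target := by
    rw [chV_apply, ContinuousLinearEquiv.apply_symm_apply]
    exact c.map_source (mem_chart_source _ _)
  have h2 := jm_contMDiff (a := a) (r := pe a h (chV a c v)) hcm h1
  have h3 : ContMDiffAt 𝓘(ℂ, Cm (a + h)) 𝓘(ℂ, Cm a × Cm h) ω (pe a h) (chV a c v) :=
    contMDiffAt_iff_contDiffAt.2 (pe a h).contDiff.contDiffAt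
  have h4 := ContMDiffAt.comp v (ContMDiffAt.comp (chV a c v) h2 h3) h0
  refine h4.congr_of_eventuallyEq ?_
  filter_upwards [(chV a c).open_source.mem_nhds hv] with v' hv'
  show v' = jm c (pe a h (chV a c v'))
  rw [chV_apply, ContinuousLinearEquiv.apply_symm_apply]
  have h5 : c.symm (c v'.2) = v'.2 := c.left_inv ((chV_source _ _).1 hv')
  exact Prod.ext rfl h5.symm

/-- the identity, from the product to the charts `chV` -/
theorem id_md' (v : Cm a × H) : ContMDiffAt (𝓘(ℂ, Cm a).prod 𝓘(ℂ, Cm h)) 𝓘(ℂ, Cm (a + h)) ω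
    (fun v : Cm a × H => v) v := by
  have hM := mfV (a := a) (h := h) (H := H)
  set c := chartAt (Cm h) v.2 with hc
  have hcm : c ∈ atlas (Cm h) H := chart_mem_atlas _ _
  have hv : v ∈ (chV a c).source := (chV_source _ _).2 (mem_chart_source _ _)
  have h0 : ContMDiffAt 𝓘(ℂ, Cm (a + h)) 𝓘(ℂ, Cm (a + h)) ω (chV a c).symm (chV a c v) :=
    contMDiffAt_symm_of_mem_maximalAtlas (IsManifold.subset_maximalAtlas (chV_mem hcm))
      ((chV a c).map_source hv)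
  have h1 : ContMDiffAt (𝓘(ℂ, Cm a).prod 𝓘(ℂ, Cm h)) 𝓘(ℂ, Cm h) ω (fun v : Cm a × H => c v.2) v :=
    ContMDiffAt.comp v (g := c) (contMDiffAt_of_mem_maximalAtlas
      (IsManifold.subset_maximalAtlas hcm) (mem_chart_source _ _)) contMDiffAt_snd
  have h2 : ContMDiffAt (𝓘(ℂ, Cm a).prod 𝓘(ℂ, Cm h)) 𝓘(ℂ, Cm a × Cm h) ω
      (fun v : Cm a × H => (v.1, c v.2)) v := contMDiffAt_fst.prodMk_space h1
  have h3 : ContMDiffAt 𝓘(ℂ, Cm a × Cm h) 𝓘(ℂ, Cm (a + h)) ω (pe a h).symm (v.1, c v.2) :=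
    contMDiffAt_iff_contDiffAt.2 (pe a h).symm.contDiff.contDiffAt
  have h4 := ContMDiffAt.comp v (g := (chV a c).symm) (f := chV a c) h0
    (ContMDiffAt.comp v (g := (pe a h).symm) h3 h2)
  refine h4.congr_of_eventuallyEq ?_
  filter_upwards [(chV a c).open_source.mem_nhds hv] with v' hv'
  exact ((chV a c).left_inv hv').symm

/-- a holomorphic immersion of the product is one in the charts `chV` -/
theorem imm_V {n : ℕ} {X : Type} [TopologicalSpace X] [ChartedSpace (Cm n) X] {j : Cm a × H → X}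
    (hj : ∀ x, ContMDiffAt (𝓘(ℂ, Cm a).prod 𝓘(ℂ, Cm h)) 𝓘(ℂ, Cm n) ω j x ∧
      Function.Injective (mfderiv (𝓘(ℂ, Cm a).prod 𝓘(ℂ, Cm h)) 𝓘(ℂ, Cm n) j x)) :
    ContMDiff 𝓘(ℂ, Cm (a + h)) 𝓘(ℂ, Cm n) ω j ∧
      ∀ x, Function.Injective (mfderiv 𝓘(ℂ, Cm (a + h)) 𝓘(ℂ, Cm n) j x) := by
  refine ⟨fun x => ContMDiffAt.comp x (g := j) (f := fun v : Cm a × H => v) (hj x).1 (id_md x),
    fun x => ?_⟩
  have m1 := (hj x).1.mdifferentiableAt (by simp)
  have m2 := (id_md (h := h) x).mdifferentiableAt (by simp)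
  have m3 := (id_md' (h := h) x).mdifferentiableAt (by simp)
  have m4 := (HasMFDerivAt.comp x (g := j) (f := fun v : Cm a × H => v) m1.hasMFDerivAt
    m2.hasMFDerivAt).mfderiv
  have m5 := (HasMFDerivAt.comp x (g := fun v : Cm a × H => v) (f := fun v : Cm a × H => v)
    m3.hasMFDerivAt m2.hasMFDerivAt).mfderiv
  have m6 : mfderiv 𝓘(ℂ, Cm (a + h)) 𝓘(ℂ, Cm (a + h)) (fun v : Cm a × H => v) x =
      ContinuousLinearMap.id ℂ (TangentSpace 𝓘(ℂ, Cm (a + h)) x) := mfderiv_id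
  intro ξ ξ' hξ
  have e1 : ∀ ξ : Cm (a + h), (mfderiv 𝓘(ℂ, Cm (a + h)) 𝓘(ℂ, Cm n) j x ξ : Cm n) =
      mfderiv (𝓘(ℂ, Cm a).prod 𝓘(ℂ, Cm h)) 𝓘(ℂ, Cm n) j x
        (mfderiv 𝓘(ℂ, Cm (a + h)) (𝓘(ℂ, Cm a).prod 𝓘(ℂ, Cm h)) (fun v : Cm a × H => v) x ξ) :=
    fun ξ => congrArg (fun L : Cm (a + h) →L[ℂ] Cm n => L ξ) m4
  have e2 : ∀ ξ : Cm (a + h), (ξ : Cm (a + h)) =
      mfderiv (𝓘(ℂ, Cm a).prod 𝓘(ℂ, Cm h)) 𝓘(ℂ, Cm (a + h)) (fun v : Cm a × H => v) x
        (mfderiv 𝓘(ℂ, Cm (a + h)) (𝓘(ℂ, Cm a).prod 𝓘(ℂ, Cm h)) (fun v : Cm a × H => v) x ξ) :=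
    fun ξ => congrArg (fun L : Cm (a + h) →L[ℂ] Cm (a + h) => L ξ) (m6.symm.trans m5)
  have e3 := (hj x).2 ((e1 ξ).symm.trans (Eq.trans hξ (e1 ξ')))
  rw [e2 ξ, e2 ξ', e3]

end csV

end Vale.Agent.P281.H615.HKT
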