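import Vale.Agent.P281.H615.HKT.GeoV
import Vale.Agent.P281.H615.HKT.Csv
import Vale.Agent.P281.H834.HKT.Cv1
import Vale.Agent.P281.H834.HKT.Cv2
import Vale.Agent.P281.H638.RC.Lat
import Vale.Agent.P281.H22.HKT.PsiU

/-!
# P281, project T-HKT, class C (helper615): the map `ψ : E → ℂ^a × H` for the fibres of `f ∘ u`
-/

open Set Filter Metric Vale.Agent.P281 Vale.Agent.P281.H713 Vale.Agent.P272.K
open Vale.Agent.P281.H603.TE (sub core)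
open scoped Topology ContDiff Manifold ComplexConjugate ComplexOrder

set_option linter.unusedSectionVars false

noncomputable section

namespace Vale.Agent.P281.H615.HKT

open Vale.Agent.P281.H64.TK Vale.Agent.P281.H64.TK.TS Vale.Agent.P281.H22.TS
open Vale.Agent.P281.H125.Fib Vale.Agent.P281.H969.K.FibN
open Vale.Agent.P281.H64.Gen (IsSmall2 excSet)
open Vale.Agent.P281.H64 (IsProperFibration)
open Vale.Agent.P281.H64.TK.TE (IsSquareE)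
open Vale.Agent.P281.H842.HKT (pe p1 p2 ap)
open Vale.Agent.P281.H191.RC (PsiT)

attribute [local instance] H603.TE.ccs'

/-- the translations of `K` are discrete -/
theorem disc_tau {d a : ℕ} {E K H : Type} [TopologicalSpace E] [Nonempty E] [TopologicalSpace H]
    [Group K] [MulAction K E] (S : Sheets d E K) (τ : E ≃ₜ Cm a × H) {l : K → Cm a}
    (hl : ∀ (k : K) e, τ (k • e) = ((τ e).1 + l k, (τ e).2)) :
    ∃ r > 0, ∀ k, ‖l k‖ < r → k = 1 := by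
  obtain ⟨e⟩ : Nonempty E := inferInstance
  obtain ⟨-, j, z, hz, -⟩ := S.cover e
  have hz3 : z ∈ ball (0 : Cm d) 3 := mem_ball_zero_iff.2 (by linarith)
  have h1 : S.σ j '' ball 0 3 ∈ 𝓝 (S.σ j z) := by
    rw [← S.map_nhds j z hz3]
    exact image_mem_map (isOpen_ball.mem_nhds hz3)
  have h2 : ContinuousAt (fun v : Cm a => τ.symm ((τ (S.σ j z)).1 + v, (τ (S.σ j z)).2)) 0 :=
    (τ.symm.continuous.comp ((continuous_const.add continuous_id).prodMk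
      continuous_const)).continuousAt
  have h3 : τ.symm ((τ (S.σ j z)).1 + 0, (τ (S.σ j z)).2) = S.σ j z := by
    rw [add_zero]
    exact τ.symm_apply_apply _
  have h4 : S.σ j '' ball 0 3 ∈ 𝓝 (τ.symm ((τ (S.σ j z)).1 + 0, (τ (S.σ j z)).2)) := by
    rw [h3]
    exact h1
  obtain ⟨r, hr, hb⟩ := Metric.mem_nhds_iff.1 (h2 h4)
  refine ⟨r, hr, fun k hk => ?_⟩
  obtain ⟨w, hw, hwe⟩ := hb (mem_ball_zero_iff.2 hk)
  have h5 : τ.symm ((τ (S.σ j z)).1 + l k, (τ (S.σ j z)).2) = k • S.σ j z := by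
    rw [Homeomorph.symm_apply_eq, hl]
  exact (S.inj j z hz3 w hw k (h5.symm.trans hwe.symm)).1

/-- the model of `f` at `y`, and `ℂ^a × H` -/
theorem exists_tauM {p d : ℕ} {Z Y : Type} [TopologicalSpace Z] [T2Space Z]
    [ChartedSpace (Cm (p + d)) Z] [IsManifold 𝓘(ℂ, Cm (p + d)) ω Z] [TopologicalSpace Y]
    [T2Space Y] [ChartedSpace (Cm p) Y] [IsManifold 𝓘(ℂ, Cm p) ω Y] {f : Z → Y} {S : Set Y}
    (hAB : ABStmt) (hd : 0 < d) (hf : ContMDiff 𝓘(ℂ, Cm (p + d)) 𝓘(ℂ, Cm p) ω f)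
    (hpf : IsProperFibration (n := p + d) (p := p) f S) {y : Y} (hy : y ∉ S) {F : Type}
    [TopologicalSpace F] [T2Space F] [ChartedSpace (Cm d) F] {i : F → Z}
    (hi : H511.Surf.IsFibre (Cm (p + d)) (Cm d) f y i) {a h : ℕ} {H : Type} [TopologicalSpace H]
    [ChartedSpace (Cm h) H] [T2Space H] [CompactSpace H] [SimplyConnectedSpace H]
    [IsManifold 𝓘(ℂ, Cm h) ω H] {Λ : AddSubgroup (Cm a)} {g : Cm a × H → F} (had : a + h = d)
    (hgs : Function.Surjective g)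
    (hgi : ∀ x, ContMDiffAt (𝓘(ℂ, Cm a).prod 𝓘(ℂ, Cm h)) 𝓘(ℂ, Cm d) ω g x ∧
      Function.Injective (mfderiv (𝓘(ℂ, Cm a).prod 𝓘(ℂ, Cm h)) 𝓘(ℂ, Cm d) g x))
    (hge : ∀ x x', g x = g x' ↔ x'.1 - x.1 ∈ Λ ∧ x.2 = x'.2) :
    ∃ (E Γ : Type) (_ : TopologicalSpace E) (_ : T2Space E) (_ : SimplyConnectedSpace E)
      (_ : Group Γ) (_ : MulAction Γ E) (_ : ContinuousConstSMul Γ E) (m : ℕ)
      (_ : (core Γ m).FiniteIndex) (𝓕 : Fam p d E Γ) (q : Cm p → E → Z)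
      (χ : OpenPartialHomeomorph Y (Cm p)) (t : Cm p) (_ : t ∈ 𝓕.T),
      Model (n := p + d) f 𝓕 χ q ∧ χ.symm t = y ∧ ∃ (τ : E ≃ₜ Cm a × H) (l : core Γ m → Cm a),
        (∀ e, i (g (τ e)) = q t e) ∧
        (∀ (k : core Γ m) e, τ ((k : Γ) • e) = ((τ e).1 + l k, (τ e).2)) ∧
        (∃ C : Set (Cm a), IsCompact C ∧ ∀ z, ∃ k : core Γ m, z + l k ∈ C) := by
  obtain ⟨E, Γ, tE, t2, sc, gΓ, aΓ, cΓ, 𝓕, q, M, ht, -⟩ := hAB p d Z Y f S hd hf hpf y hy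
  have hyy : (chartAt (Cm p) y).symm (chartAt (Cm p) y y) = y :=
    (chartAt (Cm p) y).left_inv (mem_chart_source _ y)
  have hqd := qd_of_model M ht
  have hFc : CompactSpace F := hi.compact
  have hFn : ConnectedSpace F := hi.connected
  have hFm : IsManifold 𝓘(ℂ, Cm d) ω F := hi.manifold
  set Q := q (chartAt (Cm p) y y) with hQ
  set B : Set Z := f ⁻¹' {(chartAt (Cm p) y).symm (chartAt (Cm p) y y)} with hB
  have hri : range Q = B := range_of_model M ht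
  have hib : ∀ x, i x ∈ B := fun x => by
    show f (i x) = (chartAt (Cm p) y).symm (chartAt (Cm p) y y)
    rw [hi.fibre x, hyy]
  have hcov : IsCoveringMap fun x : F => (⟨i x, hib x⟩ : B) :=
    H603.TE.isCovering hqd hi.hol hi.immersion hri hib
  have hcE : IsCoveringMap fun e : E => (⟨Q e, M.fib _ ht e⟩ : B) := M.cov _ ht
  have hcg : IsCoveringMap g := H834.HKT.gcov (h := h) (d := d) (Λ := Λ)
    ⟨hgs, fun x => (hgi x).1, fun x => (hgi x).2, hge⟩ had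
  have hLP : LocallyPathConnectedSpace E := H603.TE.locPath (𝓕.at _ ht)
  have hLH : LocallyPathConnectedSpace H := ChartedSpace.locallyPathConnectedSpace (Cm h) H
  have hsc : SimplyConnectedSpace (Cm a × H) := H834.HKT.sc_prod
  obtain ⟨x₀⟩ : Nonempty H := inferInstance
  obtain ⟨e₀, he₀⟩ : ∃ e₀, Q e₀ = i (g (0, x₀)) := by
    have h1 := hib (g (0, x₀))
    rw [← hri] at h1
    exact h1
  obtain ⟨τ, hτ⟩ := H834.HKT.exists_tau hcE hcov hcg (e₀ := e₀) (v₀ := (0, x₀))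
    (Subtype.ext he₀.symm)
  have hτ' : ∀ e, i (g (τ e)) = Q e := fun e => congrArg Subtype.val (hτ e)
  have hQeq : ∀ e e', Q e = Q e' ↔ ∃ γ : Γ, γ • e = e' := M.eq _ ht
  have hfin0 := H638.HKT.fin_fib hcov (⟨Q e₀, M.fib _ ht e₀⟩ : B)
  have hfin : (core Γ ((fun x : F => (⟨i x, hib x⟩ : B)) ⁻¹'
      {(⟨Q e₀, M.fib _ ht e₀⟩ : B)}).ncard).FiniteIndex :=
    H603.TE.coreS d _ E Γ (𝓕.at _ ht) hd
  obtain ⟨l, hl, hC, -⟩ := H638.HKT.a2 (𝓕.at _ ht) hcE hcov hcg hgs hge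
    (fun e e' => Subtype.ext_iff.trans (hQeq e e')) τ hτ e₀ hfin0 le_rfl
  exact ⟨E, Γ, tE, t2, sc, gΓ, aΓ, cΓ, _, hfin, 𝓕, q, chartAt (Cm p) y, _, ht, M, hyy, τ, l, hτ',
    hl, hC⟩

section
attribute [local instance] csV

variable {p a h : ℕ} {X Y X₁ : Type} [TopologicalSpace X] [T2Space X]
  [ChartedSpace (Cm (p + (a + h))) X] [IsManifold 𝓘(ℂ, Cm (p + (a + h))) ω X] [TopologicalSpace Y]
  [T2Space Y] [ChartedSpace (Cm p) Y] [IsManifold 𝓘(ℂ, Cm p) ω Y] [TopologicalSpace X₁]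
  [T2Space X₁] [ChartedSpace (Cm (p + (a + h))) X₁] [IsManifold 𝓘(ℂ, Cm (p + (a + h))) ω X₁]
  {f : X → Y} {u : X₁ → X} {S : Set Y} {y : Y} {F : Type} [TopologicalSpace F] [T2Space F]
  [ChartedSpace (Cm (a + h)) F] {i : F → X} {H : Type} [TopologicalSpace H]
  [ChartedSpace (Cm h) H] [T2Space H] [CompactSpace H] [SimplyConnectedSpace H]
  [IsManifold 𝓘(ℂ, Cm h) ω H] {Λ : AddSubgroup (Cm a)} {g : Cm a × H → F}

/-- **G1** -/
theorem exists_psiT (hAB : ABStmt) (hd : 0 < a + h)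
    (hsq : IsSquareE (p + (a + h)) p (a + h) f (fun z => f (u z)) u (id : Y → Y) S S y y i)
    (hgs : Function.Surjective g)
    (hgi : ∀ x, ContMDiffAt (𝓘(ℂ, Cm a).prod 𝓘(ℂ, Cm h)) 𝓘(ℂ, Cm (a + h)) ω g x ∧
      Function.Injective (mfderiv (𝓘(ℂ, Cm a).prod 𝓘(ℂ, Cm h)) 𝓘(ℂ, Cm (a + h)) g x))
    (hge : ∀ x x', g x = g x' ↔ x'.1 - x.1 ∈ Λ ∧ x.2 = x'.2) :
    ∃ (E Γ : Type) (_ : TopologicalSpace E) (_ : T2Space E) (_ : SimplyConnectedSpace E)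
      (_ : Group Γ) (_ : MulAction Γ E) (_ : ContinuousConstSMul Γ E) (m : ℕ)
      (_ : (core Γ m).FiniteIndex) (𝓕 : Fam p (a + h) E Γ) (q : Cm p → E → X₁)
      (χ : OpenPartialHomeomorph Y (Cm p)) (t : Cm p) (ht : t ∈ 𝓕.T),
      Model (n := p + (a + h)) (fun z => f (u z)) 𝓕 χ q ∧ χ.symm t = y ∧
        ∃ (ψ : E → Cm a × H) (l : core Γ m → Cm a) (A : Set (Cm a × H)),
          PsiT (h := h) (sub (𝓕.at t ht) (core Γ m)) ψ l A ∧ (∀ k, l k = 0 → k = 1) ∧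
          (∀ R : ℝ, {k : core Γ m | ‖l k‖ ≤ R}.Finite) ∧
          ∃ C : Set (Cm a), IsCompact C ∧ ∀ z, ∃ k : core Γ m, z + l k ∈ C := by
  have mV : IsManifold 𝓘(ℂ, Cm (a + h)) ω (Cm a × H) := mfV
  have hFm : IsManifold 𝓘(ℂ, Cm (a + h)) ω F := hsq.fibre.manifold
  have hj : ∀ x, ContMDiffAt (𝓘(ℂ, Cm a).prod 𝓘(ℂ, Cm h)) 𝓘(ℂ, Cm (p + (a + h))) ω
      (fun v => i (g v)) x ∧ Function.Injective (mfderiv (𝓘(ℂ, Cm a).prod 𝓘(ℂ, Cm h))
        𝓘(ℂ, Cm (p + (a + h))) (fun v => i (g v)) x) := by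
    intro x
    refine ⟨ContMDiffAt.comp x (hsq.fibre.hol (g x)) (hgi x).1, ?_⟩
    have m1 := (HasMFDerivAt.comp x (g := i) (f := g)
      ((hsq.fibre.hol (g x)).mdifferentiableAt (by simp)).hasMFDerivAt
      ((hgi x).1.mdifferentiableAt (by simp)).hasMFDerivAt).mfderiv
    intro ξ ξ' hξ
    have e1 : ∀ ξ : Cm a × Cm h, (mfderiv (𝓘(ℂ, Cm a).prod 𝓘(ℂ, Cm h))
        𝓘(ℂ, Cm (p + (a + h))) (fun v => i (g v)) x ξ : Cm (p + (a + h))) =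
        mfderiv 𝓘(ℂ, Cm (a + h)) 𝓘(ℂ, Cm (p + (a + h))) i (g x)
          (mfderiv (𝓘(ℂ, Cm a).prod 𝓘(ℂ, Cm h)) 𝓘(ℂ, Cm (a + h)) g x ξ) :=
      fun ξ => congrArg (fun L : Cm a × Cm h →L[ℂ] Cm (p + (a + h)) => L ξ) m1
    exact (hgi x).2 (hsq.fibre.immersion _ ((e1 ξ).symm.trans (Eq.trans hξ (e1 ξ'))))
  obtain ⟨hj1, hj2⟩ := imm_V hj
  obtain ⟨hg1, hg2⟩ := imm_V hgi
  have hAs : IsSmall2 (Cm (a + h)) ((fun v => i (g v)) ⁻¹'
      (u '' excSet (Cm (p + (a + h))) u)) := small2_pull hg1 hg2 hsq.small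
  obtain ⟨E₀, Γ₀, tE₀, t2₀, sc₀, gΓ₀, aΓ₀, cΓ₀, m, hfin₀, 𝓕₀, q₀, χ₀, t₀, ht₀, M₀, hy₀, τ, l₀,
    hτ, hl₀, C, hC, hC'⟩ := exists_tauM hAB hd hsq.hol hsq.proper hsq.out hsq.fibre rfl hgs hgi hge
  obtain ⟨E, Γ, tE, t2, sc, gΓ, aΓ, cΓ, 𝓕, q, χ, t, ht, M, hy, ρ, ψ, hψa, hψj, hψ⟩ :=
    exists_psi_gen hd hsq hAB hj1 hj2 hAs ht₀ M₀ hy₀ τ hτ
  have hfin : (core Γ m).FiniteIndex := H603.TE.coreS (a + h) m E Γ (𝓕.at t ht) hd
  have hqd := qd_of_model M ht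
  set l : core Γ m → Cm a := fun k => l₀ ⟨ρ k, (H603.TE.map_core ρ m).2 k.2⟩ with hl
  have act : ∀ (k : core Γ m) e, ψ ((k : Γ) • e) = ((ψ e).1 + l k, (ψ e).2) := by
    intro k e
    rw [hψa]
    have h1 := hl₀ ⟨ρ k, (H603.TE.map_core ρ m).2 k.2⟩ (τ.symm (ψ e))
    rw [τ.apply_symm_apply] at h1
    exact h1
  have hP := hψ (core Γ m)
  set A : Set (Cm a × H) := (fun v => i (g v)) ⁻¹' (u '' excSet (Cm (p + (a + h))) u) with hA
  have inv : ∀ (k : core Γ m) (v : Cm a × H), (v.1 + l k, v.2) ∈ A ↔ v ∈ A := by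
    intro k v
    obtain ⟨e, rfl⟩ := hP.surj v
    rw [← act k e]
    show i (g (ψ ((k : Γ) • e))) ∈ u '' excSet (Cm (p + (a + h))) u ↔
      i (g (ψ e)) ∈ u '' excSet (Cm (p + (a + h))) u
    have h1 : i (g (ψ ((k : Γ) • e))) = u (q t ((k : Γ) • e)) := hψj _
    have h2 : i (g (ψ e)) = u (q t e) := hψj _
    have h3 : q t ((k : Γ) • e) = q t e := ((hqd.Qeq _ _).2 ⟨(k : Γ), rfl⟩).symm
    rw [h1, h2, h3]
  have hT : PsiT (h := h) (sub (𝓕.at t ht) (core Γ m)) ψ l A := by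
    refine H22.HKT.psiT_psi (fun e he => ⟨chV a e, chV_mem he, fun v hv => (chV_source e v).2 hv,
      fun v => rfl, fun w => rfl⟩) hP act inv
  have hne : Nonempty E := inferInstance
  have hAe : ∃ e, ψ e ∉ A := by
    obtain ⟨e⟩ := hne
    obtain ⟨-, j, z, hz, -⟩ := (sub (𝓕.at t ht) (core Γ m)).cover e
    obtain ⟨w, -, -, hw⟩ := hP.dense j z (mem_ball_zero_iff.2 (by linarith)) univ univ_mem
    exact ⟨_, hw⟩
  have zero : ∀ k, l k = 0 → k = 1 := fun k hk =>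
    H638.RC.zero_of (K := core Γ m) act
      (fun k e h => H638.HKT.free_of_sheets (sub (𝓕.at t ht) (core Γ m)) h) hT.inj hAe k hk
  have hne₀ : Nonempty E₀ := inferInstance
  obtain ⟨r, hr, hr'⟩ := disc_tau (sub (𝓕₀.at t₀ ht₀) (core Γ₀ m)) τ (l := l₀) hl₀
  have hmul : ∀ k k', l (k * k') = l k + l k' := H638.RC.act_mul (K := core Γ m) act
  refine ⟨E, Γ, tE, t2, sc, gΓ, aΓ, cΓ, m, hfin, 𝓕, q, χ, t, ht, M, hy, ψ, l, A, hT, zero, ?_,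
    C, hC, fun z => ?_⟩
  · refine H638.RC.fin_of_disc (Λ := (H638.HKT.im hmul).toAddSubgroup) ⟨r, hr, ?_⟩
      (fun k => ⟨k, rfl⟩) (H638.RC.inj_of (K := core Γ m) act zero)
    rintro _ ⟨k, rfl⟩ hk
    have h1 := hr' ⟨ρ k, (H603.TE.map_core ρ m).2 k.2⟩ hk
    have h2 : ρ k = 1 := congrArg Subtype.val h1
    have h3 : (k : Γ) = 1 := by rwa [map_eq_one_iff ρ ρ.injective] at h2
    have h4 : k = 1 := Subtype.ext h3
    have h5 := hmul 1 1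
    rw [mul_one] at h5
    rw [h4]
    simpa using h5
  · obtain ⟨k₀, hk₀⟩ := hC' z
    have h1 : ρ (ρ.symm (k₀ : Γ₀)) = k₀ := ρ.apply_symm_apply _
    have h2 : ρ.symm (k₀ : Γ₀) ∈ core Γ m := by
      rw [← H603.TE.map_core ρ m, h1]
      exact k₀.2
    refine ⟨⟨ρ.symm k₀, h2⟩, ?_⟩
    have h3 : l ⟨ρ.symm k₀, h2⟩ = l₀ k₀ := congrArg l₀ (Subtype.ext h1)
    rw [h3]
    exact hk₀

end

end Vale.Agent.P281.H615.HKT
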