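import Vale.Agent.P281.H615.HKT.FibC
import Vale.Agent.P281.H615.HKT.GeoT
import Vale.Agent.P281.H638.RC.Mark
import Vale.Agent.P281.H125.RC.ConnT

/-!
# P281, project T-HKT, class C (helper615): the fibres of `f ∘ u`, assembly
-/

open Set Filter Metric MeasureTheory Vale.Agent.P281 Vale.Agent.P281.H713 Vale.Agent.P272.K
open Vale.Agent.P281.H603.TE (sub core)
open Vale.Agent.P281.H399.QT (Qs One1 pj quo)
open scoped Topology ContDiff Manifold ComplexConjugate ComplexOrder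

noncomputable section

namespace Vale.Agent.P281.H615.HKT

open Vale.Agent.P281.H64.TK Vale.Agent.P281.H64.TK.TS Vale.Agent.P281.H83.HK
open Vale.Agent.P281.H83.HKT (NDegT GenU RatRad dF IsTH)
open Vale.Agent.P281.H191.RC (PsiT)
open Vale.Agent.P281.H64.TK.TE (IsSquareE)

attribute [local instance] H603.TE.ccs'

/-- **G2**, the closed holomorphic forms -/
def GenPsi : Prop :=
  ∀ (a h d : ℕ) (E K H : Type) [TopologicalSpace E] [T2Space E] [SimplyConnectedSpace E] [Group K]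
    [MulAction K E] [ContinuousConstSMul K E] [TopologicalSpace H] [ChartedSpace (Cm h) H]
    [T2Space H] [CompactSpace H] [SimplyConnectedSpace H] [IsManifold 𝓘(ℂ, Cm h) ω H]
    (S : Sheets d E K) (ψ : E → Cm a × H) (l : K → Cm a) (A : Set (Cm a × H)), a + h = d →
    2 ≤ h → Sympl h H → PsiT (h := h) S ψ l A → (∀ k, l k = 0 → k = 1) →
    (∀ R : ℝ, {k : K | ‖l k‖ ≤ R}.Finite) →
    (∃ C : Set (Cm a), IsCompact C ∧ ∀ z, ∃ k : K, z + l k ∈ C) →
    ∃ s, GenU (quo S) (dF S fun e => (ψ e).1) s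

/-- **G2**, the additive functions -/
def BasPsi : Prop :=
  ∀ (a h d : ℕ) (E K H : Type) [TopologicalSpace E] [T2Space E] [SimplyConnectedSpace E] [Group K]
    [MulAction K E] [ContinuousConstSMul K E] [TopologicalSpace H] [ChartedSpace (Cm h) H]
    [T2Space H] [CompactSpace H] [SimplyConnectedSpace H] [IsManifold 𝓘(ℂ, Cm h) ω H]
    (S : Sheets d E K) (ψ : E → Cm a × H) (l : K → Cm a) (A : Set (Cm a × H)), a + h = d →
    2 ≤ h → Sympl h H → PsiT (h := h) S ψ l A → (∀ k, l k = 0 → k = 1) →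
    (∀ R : ℝ, {k : K | ‖l k‖ ≤ R}.Finite) →
    (∃ C : Set (Cm a), IsCompact C ∧ ∀ z, ∃ k : K, z + l k ∈ C) →
    IsBas S (fun e => (ψ e).1) l

/-- **FIB, class C** (the statement of `H225.HKT.FibTCStmt`, without the metric). -/
theorem fibTC_of (hAB : ABStmt) (hRC : H152.RC.RadCStmt) (hG : GenPsi) (hB : BasPsi) {p d : ℕ}
    {X Y X₁ : Type} [TopologicalSpace X] [T2Space X] [ChartedSpace (Cm (p + d)) X]
    [IsManifold 𝓘(ℂ, Cm (p + d)) ω X] [TopologicalSpace Y] [T2Space Y] [ChartedSpace (Cm p) Y]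
    [IsManifold 𝓘(ℂ, Cm p) ω Y] [TopologicalSpace X₁] [T2Space X₁]
    [ChartedSpace (Cm (p + d)) X₁] [IsManifold 𝓘(ℂ, Cm (p + d)) ω X₁] {f : X → Y} {u : X₁ → X}
    {S : Set Y} {y : Y} {F : Type} [TopologicalSpace F] [T2Space F] [ChartedSpace (Cm d) F]
    {i : F → X} (hsq : IsSquareE (p + d) p d f (fun z => f (u z)) u (id : Y → Y) S S y y i)
    (hF : IsTH d F) : ∃ a m N, a + 2 ≤ d ∧ 0 < N ∧ NDegT p d a m N (fun z => f (u z)) y := by
  obtain ⟨a, h, H, tH, cH, Λ, g, had, hh, t2H, cpH, scH, mH, hH, hgs, hgi, hge⟩ := hF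
  subst had
  obtain ⟨E, Γ, tE, t2, sc, gΓ, aΓ, cΓ, m, hfin, 𝓕, q, χ, t, ht, M, hy, ψ, l, A, hT, zero, fin,
    cpt⟩ := exists_psiT hAB (by omega) hsq hgs hgi hge
  have hne : Nonempty E := inferInstance
  refine ⟨a, m, (core Γ m).index, by omega, Nat.pos_of_ne_zero hfin.index_ne_zero, ?_⟩
  rw [← hy]
  exact ndegT_of_rad hRC hh ht M (H638.RC.mark_act (K := core Γ m) hT.eqv zero fin cpt)
    (hB a h _ E (core Γ m) H _ ψ l A rfl hh hH hT zero fin cpt) fin zero
    (hG a h _ E (core Γ m) H _ ψ l A rfl hh hH hT zero fin cpt) (H125.RC.connTc fin hT)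

end Vale.Agent.P281.H615.HKT
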