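import Vale.Agent.P281.H152.RC.Spec
import Vale.Agent.P281.H191.RC.PsiT

/-!
# P281, project T-HKT, class C (helper615): the fibres of `f ∘ u`, from the map `ψ : E → ℂ^a × H`
-/

open Set Filter Metric MeasureTheory Vale.Agent.P281 Vale.Agent.P281.H713 Vale.Agent.P272.K
open Vale.Agent.P281.H64.Thin (IsThinSet)
open Vale.Agent.P281.H64 (Mark)
open Vale.Agent.P281.H603.TE (sub core)
open Vale.Agent.P281.H399.QT (Qs One1 pj quo)
open scoped Topology ContDiff Manifold ComplexConjugate ComplexOrder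

noncomputable section

namespace Vale.Agent.P281.H615.HKT

open Vale.Agent.P281.H64.TK Vale.Agent.P281.H64.TK.TS Vale.Agent.P281.H83.HK
open Vale.Agent.P281.H83.HKT (NDegT GenU RatRad dF)

attribute [local instance] H603.TE.ccs

/-- **The assembly, at one fibre.** -/
theorem ndegT_of_rad (hRC : H152.RC.RadCStmt) {p a h m : ℕ} (hh : 2 ≤ h) {X₁ Y : Type}
    [TopologicalSpace X₁] [ChartedSpace (Cm (p + (a + h))) X₁] [TopologicalSpace Y]
    [ChartedSpace (Cm p) Y] {f₁ : X₁ → Y} {E Γ : Type} [TopologicalSpace E] [T2Space E]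
    [SimplyConnectedSpace E] [Group Γ] [MulAction Γ E] [ContinuousConstSMul Γ E]
    [(core Γ m).FiniteIndex] {𝓕 : Fam p (a + h) E Γ} {q : Cm p → E → X₁}
    {χ : OpenPartialHomeomorph Y (Cm p)} {t : Cm p} (ht : t ∈ 𝓕.T)
    (hM : Model (n := p + (a + h)) f₁ 𝓕 χ q) {F : E → Fin a → ℂ} {c : core Γ m → Fin a → ℂ}
    (M : Nonempty (Mark (core Γ m) (a + a)))
    (hbas : IsBas (sub (𝓕.at t ht) (core Γ m)) F c)
    (hfin : ∀ R : ℝ, {k : core Γ m | ‖c k‖ ≤ R}.Finite) (hzero : ∀ k, c k = 0 → k = 1)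
    (hgen : ∃ s, GenU (quo (sub (𝓕.at t ht) (core Γ m)))
      (dF (sub (𝓕.at t ht) (core Γ m)) F) s)
    (hconn : ∃ H : ℕ → Set (Cm a), (∀ k, IsThinSet (Cm a) (H k)) ∧ ∀ t, (∀ k, t ∉ H k) →
      IsPreconnected (F ⁻¹' {t})) :
    NDegT p (a + h) a m (core Γ m).index f₁ (χ.symm t) := by
  obtain ⟨M⟩ := M
  exact ⟨E, Γ, _, inferInstance, inferInstance, _, _, inferInstance, inferInstance, 𝓕, q, χ, t,
    ht, hM, rfl, rfl, ⟨M⟩, F, c, hbas, hgen, fun w hw =>
      hRC a h E (core Γ m) (sub (𝓕.at t ht) (core Γ m)) w M F c hh hw hbas hfin hzero hgen hconn⟩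

end Vale.Agent.P281.H615.HKT
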