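import Vale.Agent.P281.H615.NC.Geo

/-!
# P281, project T-HKT, class C (helper615): the map from the universal covering of the fibre of
`f ∘ u` to the universal covering `V` of the fibre of `f`
-/

open Set Filter Metric Vale.Agent.P281 Vale.Agent.P281.H713 Vale.Agent.P272.K
open Vale.Agent.P281.H603.TE (sub idx rep)
open scoped Topology ContDiff Manifold ComplexConjugate ComplexOrder

set_option linter.unusedSectionVars false

noncomputable section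

namespace Vale.Agent.P281.H615.HKT

open Vale.Agent.P281.H64.TK Vale.Agent.P281.H64.TK.TS Vale.Agent.P281.H22.TS
open Vale.Agent.P281.H125.Fib Vale.Agent.P281.H969.K.FibN Vale.Agent.P281.H603.TE
open Vale.Agent.P281.H603.K Vale.Agent.P281.H603.KodN
open Vale.Agent.P281.H64.Gen (IsSmall2 excSet)
open Vale.Agent.P281.H64.TK.TE (IsSquareE)
open Vale.Agent.P281.H615.NC

attribute [local instance] ccs'

variable {p d : ℕ} {X Y X₁ : Type} [TopologicalSpace X] [T2Space X] [ChartedSpace (Cm (p + d)) X]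
  [IsManifold 𝓘(ℂ, Cm (p + d)) ω X] [TopologicalSpace Y] [T2Space Y] [ChartedSpace (Cm p) Y]
  [IsManifold 𝓘(ℂ, Cm p) ω Y] [TopologicalSpace X₁] [T2Space X₁] [ChartedSpace (Cm (p + d)) X₁]
  [IsManifold 𝓘(ℂ, Cm (p + d)) ω X₁] {f : X → Y} {u : X₁ → X} {S : Set Y} {y : Y}
  {F : Type} [TopologicalSpace F] [ChartedSpace (Cm d) F] {i : F → X}
  {V : Type} [TopologicalSpace V] [T2Space V] [PreconnectedSpace V] [Nonempty V]
  [ChartedSpace (Cm d) V] [IsManifold 𝓘(ℂ, Cm d) ω V] {j : V → X}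

/-- **A model of `f ∘ u`, with the map `ψ` from its universal covering to that of the fibre of `f`.** -/
theorem exists_psi_gen (hd : 0 < d)
    (hsq : IsSquareE (p + d) p d f (fun z => f (u z)) u (id : Y → Y) S S y y i) (hAB : ABStmt)
    (hj : ContMDiff 𝓘(ℂ, Cm d) 𝓘(ℂ, Cm (p + d)) ω j)
    (hji : ∀ x, Function.Injective (mfderiv 𝓘(ℂ, Cm d) 𝓘(ℂ, Cm (p + d)) j x))
    (hAs : IsSmall2 (Cm d) (j ⁻¹' (u '' excSet (Cm (p + d)) u))) {E₀ Γ₀ : Type}
    [TopologicalSpace E₀] [T2Space E₀] [SimplyConnectedSpace E₀] [Group Γ₀] [MulAction Γ₀ E₀]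
    [ContinuousConstSMul Γ₀ E₀] {𝓕₀ : Fam p d E₀ Γ₀} {q₀ : Cm p → E₀ → X}
    {χ₀ : OpenPartialHomeomorph Y (Cm p)} {t₀ : Cm p} (ht₀ : t₀ ∈ 𝓕₀.T)
    (M₀ : Model (n := p + d) f 𝓕₀ χ₀ q₀) (hy₀ : χ₀.symm t₀ = y) (τ : E₀ ≃ₜ V)
    (hτ : ∀ e, j (τ e) = q₀ t₀ e) :
    ∃ (E Γ : Type) (_ : TopologicalSpace E) (_ : T2Space E) (_ : SimplyConnectedSpace E)
      (_ : Group Γ) (_ : MulAction Γ E) (_ : ContinuousConstSMul Γ E) (𝓕 : Fam p d E Γ)
      (q : Cm p → E → X₁) (χ : OpenPartialHomeomorph Y (Cm p)) (t : Cm p) (ht : t ∈ 𝓕.T),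
      Model (n := p + d) (fun z => f (u z)) 𝓕 χ q ∧ χ.symm t = y ∧ ∃ (ρ : Γ ≃* Γ₀) (ψ : E → V),
        (∀ γ e, ψ (γ • e) = τ (ρ γ • τ.symm (ψ e))) ∧ (∀ e, j (ψ e) = u (q t e)) ∧
        ∀ (K : Subgroup Γ) [K.FiniteIndex], Psi (sub (𝓕.at t ht) K) ψ
          (j ⁻¹' (u '' excSet (Cm (p + d)) u)) := by
  obtain ⟨E, Γ, tE, t2, sc, gΓ, aΓ, cΓ, 𝓕, q, M, ht, -⟩ :=
    hAB p d X₁ Y (fun z => f (u z)) S hd hsq.hol₁ hsq.proper₁ y hsq.out₁
  have hyy : (chartAt (Cm p) y).symm (chartAt (Cm p) y y) = y :=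
    (chartAt (Cm p) y).left_inv (mem_chart_source _ y)
  have hqd₀ := qd_of_model M₀ ht₀
  have hqd := qd_of_model M ht
  set Q₀ := q₀ t₀ with hQ₀
  set Q := q (chartAt (Cm p) y y) with hQ
  set W : Set X := f ⁻¹' {y} with hW
  have hr₀ : range Q₀ = W := by rw [hQ₀, range_of_model M₀ ht₀, hy₀]
  have hr : range Q = u ⁻¹' W := by
    rw [hQ, range_of_model M ht, hyy]
    rfl
  have hQ₀W : ∀ e, Q₀ e ∈ W := fun e => by
    rw [← hr₀]
    exact ⟨e, rfl⟩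
  have hQW : ∀ e, Q e ∈ u ⁻¹' W := fun e => by
    rw [← hr]
    exact ⟨e, rfl⟩
  have hm : Mod0 (n := p + d) u := mod0 hsq.modif
  have hcu : ContMDiff 𝓘(ℂ, Cm (p + d)) 𝓘(ℂ, Cm (p + d)) ω u := hsq.modif.2.1
  have md := Md_restr (H603.C.Md.of hm) W
  have T₀ := totF hqd₀ hr₀ hQ₀W
  have T₁ : H603.C.TotCov (P := P0) Γ (univ : Set P0)
      ((fun z : ↥(u ⁻¹' W) => (⟨u z, z.2⟩ : ↥W)) ⁻¹' (univ : Set ↥W))
      (fun z : ↥(u ⁻¹' W) => (fun _ : ↥W => (0 : P0)) ⟨u z, z.2⟩)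
      fun _ e => (⟨Q e, hQW e⟩ : ↥(u ⁻¹' W)) := totF hqd hr hQW
  have i1 : SimplyConnectedSpace (H603.C.Tot (univ : Set P0) E₀) :=
    H603.C.simply convex_univ univ_nonempty
  have i2 : SimplyConnectedSpace (H603.C.Tot (univ : Set P0) E) :=
    H603.C.simply convex_univ univ_nonempty
  have i3 : LocallyPathConnectedSpace E := locPath (𝓕.at _ ht)
  obtain ⟨L, hL⟩ := H603.C.exists_L T₀ T₁ md convex_univ isOpen_univ univ_nonempty
  obtain ⟨ρ, hρ⟩ := hL.hom T₀ T₁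
  -- the small set
  set A : Set V := j ⁻¹' (u '' excSet (Cm (p + d)) u) with hA
  have hAd : Dense Aᶜ := H383.Gen.dense_compl_small (H308.Bir.small_of_small2 hAs)
  have hτA : ∀ e, Q₀ e ∈ u '' excSet (Cm (p + d)) u ↔ τ e ∈ A := fun e => by
    show _ ↔ j (τ e) ∈ u '' excSet (Cm (p + d)) u
    rw [hτ]
  -- a point off the exceptional set
  have hne : ∃ e, Q e ∉ excSet (Cm (p + d)) u := by
    obtain ⟨x₀⟩ : Nonempty V := inferInstance
    obtain ⟨x, hx⟩ := hAd.nonempty_iff.2 ⟨x₀⟩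
    obtain ⟨z, hz⟩ := hm.surj (j x)
    have hzW : z ∈ u ⁻¹' W := by
      have h1 : j x = Q₀ (τ.symm x) := by rw [← hτ, τ.apply_symm_apply]
      show u z ∈ W
      rw [hz, h1]
      exact hQ₀W _
    rw [← hr] at hzW
    obtain ⟨e, rfl⟩ := hzW
    exact ⟨e, fun hcon => hx ⟨Q e, hcon, hz⟩⟩
  -- charts
  have hch : ∀ z : H603.C.Tot (univ : Set P0) E₀, ∃ φ : OpenPartialHomeomorph
      (H603.C.Tot (univ : Set P0) E₀) (Fin d → ℂ), z ∈ φ.source ∧
      H603.C.Thin2 (φ.target ∩ φ.symm ⁻¹' {y : H603.C.Tot (univ : Set P0) E₀ |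
        (⟨Q₀ y.2, hQ₀W y.2⟩ : ↥W) ∈
          (Subtype.val ⁻¹' (u '' excSet (Cm (p + d)) u) : Set ↥W)}) φ.target := by
    intro z
    set c := chartAt (Cm d) (τ z.2) with hc
    set hom : H603.C.Tot (univ : Set P0) E₀ ≃ₜ V := (homT E₀).trans τ with hhom
    have hsrc : z ∈ (hom.toOpenPartialHomeomorph.trans c).source := by
      rw [OpenPartialHomeomorph.trans_source]
      exact ⟨mem_univ _, mem_chart_source _ _⟩
    refine ⟨hom.toOpenPartialHomeomorph.trans c, hsrc, ?_⟩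
    have htgt : (hom.toOpenPartialHomeomorph.trans c).target = c.target := by
      rw [OpenPartialHomeomorph.trans_target]
      exact inter_eq_left.2 fun _ _ => mem_univ _
    rw [htgt]
    have h1 := H603.C.thin2_chart hAs (τ z.2) c.open_target (subset_refl _)
    convert h1 using 1
    ext v
    refine and_congr_right fun _ => ?_
    show Q₀ (τ.symm (c.symm v)) ∈ u '' excSet (Cm (p + d)) u ↔ c.symm v ∈ A
    rw [hτA, τ.apply_symm_apply]
  have hpre : IsPreconnected {y : H603.C.Tot (univ : Set P0) E₀ |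
      (⟨Q₀ y.2, hQ₀W y.2⟩ : ↥W) ∉ (Subtype.val ⁻¹' (u '' excSet (Cm (p + d)) u) : Set ↥W)} := by
    have h1 : IsPreconnected Aᶜ :=
      (H383.Gen.compl d V A (H308.Bir.small_of_small2 hAs)).2
    have h2 := ((homT E₀).trans τ).isPreconnected_preimage.2 h1
    convert h2 using 1
    ext y
    show ¬ (Q₀ y.2 ∈ u '' excSet (Cm (p + d)) u) ↔ ¬ (τ y.2 ∈ A)
    rw [hτA]
  have hpre₁ : IsPreconnected {x : H603.C.Tot (univ : Set P0) E |
      (⟨Q x.2, hQW x.2⟩ : ↥(u ⁻¹' W)) ∉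
        (Subtype.val ⁻¹' excSet (Cm (p + d)) u : Set ↥(u ⁻¹' W))} := by
    have h1 := (locEq_exc hqd hcu).preconn (hm.eclosed.preimage hqd.Qcont) hne
    exact (homT E).isPreconnected_preimage.2 h1
  obtain ⟨e₁, he₁⟩ := hne
  obtain ⟨hbij, hs, hinj⟩ := hL.bij (H83.Sheet.covInj_of H495.C.sec) (n := d) T₀ T₁ md hρ hch hpre
    hpre₁ ⟨(homT E).symm e₁, he₁⟩
  -- the map
  have hval : ∀ e, Q₀ (L ((homT E).symm e)).2 = u (Q e) := fun e =>
    congrArg Subtype.val (hL.eq ((homT E).symm e))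
  have hψ : ∀ e, j (τ (L ((homT E).symm e)).2) = u (Q e) := fun e => by
    rw [hτ]
    exact hval e
  refine ⟨E, Γ, tE, t2, sc, gΓ, aΓ, cΓ, 𝓕, q, chartAt (Cm p) y, _, ht, M, hyy,
    MulEquiv.ofBijective ρ hbij, fun e => τ (L ((homT E).symm e)).2, fun γ e => ?_, hψ,
    fun K _ => ?_⟩
  · show τ (L ((homT E).symm (γ • e))).2 = τ (ρ γ • τ.symm (τ (L ((homT E).symm e)).2))
    rw [τ.symm_apply_apply]
    have h1 : (homT E).symm (γ • e) = γ • (homT E).symm e := rfl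
    rw [h1, hρ]
    rfl
  refine psi_of hqd hm hcu hj hji ?_ hψ ?_ ?_ hAs ⟨e₁, he₁⟩ K
  · exact τ.continuous.comp ((homT E₀).continuous.comp (hL.cont.comp (homT E).symm.continuous))
  · intro x
    obtain ⟨e, he⟩ := hs ((homT E₀).symm (τ.symm x))
    refine ⟨homT E e, ?_⟩
    show τ (L ((homT E).symm (homT E e))).2 = x
    rw [(homT E).symm_apply_apply, he]
    exact τ.apply_symm_apply x
  · intro e e' he hQe
    have h1 : (L ((homT E).symm e)).2 = (L ((homT E).symm e')).2 := τ.injective he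
    have h2 : L ((homT E).symm e) = L ((homT E).symm e') :=
      Prod.ext (Subtype.ext (Subsingleton.elim _ _)) h1
    exact (homT E).symm.injective (hinj _ _ h2 hQe)

end Vale.Agent.P281.H615.HKT
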